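import Vale.Agent.P033.HalfShift

/-!
P033: in a circulant Hadamard matrix of order `4 u²` (`u` odd) the first row and its shift by half
the order agree and disagree at least about `u / √2` times on each parity class.
-/

noncomputable section

namespace Vale.Agent.Results.P033.HalfShiftClasses

open Finset

/-- For the first row `h` of a circulant Hadamard matrix of order `4 u²`, `u` odd, and a parity `e`:
if `s` is the number of `j < 2 u²` of that parity with `h j = h (j + 2 u²)`, then both
`2 s (s - 1)` and `2 (u² - s) (u² - s - 1)` are at least `u² - 1`. -/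
theorem result (u : ℕ) (hu : Odd u) (h : ℕ → ℤ) (hh : ∀ j, h j = 1 ∨ h j = -1)
    (hH : ∀ t, 1 ≤ t → t < 4 * u ^ 2 →
      ∑ j ∈ range (4 * u ^ 2), h j * h ((j + t) % (4 * u ^ 2)) = 0)
    (e : ℕ) (he : e < 2) :
    let s : ℤ := ((range (2 * u ^ 2)).filter fun j => j % 2 = e ∧ h j = h (j + 2 * u ^ 2)).card
    (u : ℤ) ^ 2 - 1 ≤ 2 * s * (s - 1) ∧
      (u : ℤ) ^ 2 - 1 ≤ 2 * ((u : ℤ) ^ 2 - s) * ((u : ℤ) ^ 2 - s - 1) := by
  intro s
  have hpos : 0 < u ^ 2 := pow_pos hu.pos 2
  have : NeZero (4 * u ^ 2) := ⟨by omega⟩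
  have key := Vale.Agent.P033.half_shift (M := u ^ 2) hu.pow
    (fun j : ZMod (4 * u ^ 2) => h j.val) (fun j => hh _) (fun t ht => by
      refine Eq.trans (sum_congr rfl fun j hj => ?_) (hH t.val
        (Nat.one_le_iff_ne_zero.2 ((ZMod.val_ne_zero t).2 ht)) t.val_lt)
      rw [ZMod.val_natCast_of_lt (mem_range.1 hj), ZMod.val_add,
        ZMod.val_natCast_of_lt (mem_range.1 hj)]) e he
    (s := ((range (2 * u ^ 2)).filter fun j => j % 2 = e ∧ h j = h (j + 2 * u ^ 2)).card)
    (congrArg card (filter_congr fun j hj => by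
      have := mem_range.1 hj
      rw [ZMod.val_natCast_of_lt (by omega), ZMod.val_natCast_of_lt (by omega)]))
  push_cast at key
  exact key

end Vale.Agent.Results.P033.HalfShiftClasses
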